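import Mathlib
import Vale.Agent.P322.Defs
import Vale.Agent.P322.SCQuart2

/-!
Courtade-Kumar problem: the conjectured inequality `I(f(X);Y) ≤ 1 - h2 ε` itself, for every
Boolean function `f` (balanced or not), in every dimension `n`, for every crossover probability
`ε` in `[0, 1/20]` (low noise, correlation `ρ = 1 - 2 ε ≥ 9/10`) and in `[1/6, 1/2]`
(`ρ ≤ 2/3`).
-/

open Vale.Agent.P322 in
theorem Vale.Agent.Results.P322.AllLowHighNoise.result (n : ℕ) (f : Cube n → ℤˣ) (ε : ℝ)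
    (h : (0 ≤ ε ∧ ε ≤ 1 / 20) ∨ (1 / 6 ≤ ε ∧ ε ≤ 1 / 2)) :
    mutualInfo (law n ε) (fun ω => f ω.1) (fun ω => noisy ω) ≤ 1 - h2 ε := by
  rcases h with h | h
  · exact ck_low_noise f h.1 h.2
  · exact ck_sixth f h.1 h.2
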