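import Mathlib
import Vale.Agent.P322.Defs
import Vale.Agent.P322.BMLink
import Vale.Agent.P322.QFAll
import Vale.Agent.P322.QF23

/-!
Courtade-Kumar conjecture in full, in the entropy form `H(f(X)) - H(f(X)|Y) ≤ log 2 - h(ε)`
(natural logarithms), written with Mathlib notions only.
-/

namespace Vale.Agent.Results.P322.EntropyForm

open Vale.Agent.P322

theorem psi2_eq (t : ℝ) : psi2 t = 2 * Real.log 2 - 2 * Real.binEntropy ((1 + t) / 2) := by
  have e : 1 - (1 + t) / 2 = (1 - t) / 2 := by ring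
  have key : ∀ u : ℝ, u / 2 * Real.log (u / 2)⁻¹ = u / 2 * (Real.log 2 - Real.log u) := by
    intro u
    rcases eq_or_ne u 0 with rfl | hu
    · simp
    · rw [Real.log_inv, Real.log_div hu (by norm_num)]
      ring
  unfold psi2 Real.binEntropy
  rw [e, key, key]
  ring

theorem h2_eq (p : ℝ) : h2 p = Real.binEntropy p / Real.log 2 := by
  unfold h2 Real.binEntropy Real.logb
  rw [Real.log_inv, Real.log_inv]
  ring

theorem result (n : ℕ) (f : (Fin n → ℤˣ) → ℤˣ) (ε : ℝ) (h0 : 0 ≤ ε) (h1 : ε ≤ 1 / 2) :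
    Real.binEntropy ((1 + (1 / 2) ^ n * ∑ x : Fin n → ℤˣ, ((f x : ℤ) : ℝ)) / 2)
      - (1 / 2) ^ n * ∑ y : Fin n → ℤˣ,
          Real.binEntropy ((1 + ∑ z : Fin n → ℤˣ,
            (∏ i, if z i = -1 then ε else 1 - ε) * ((f (y * z) : ℤ) : ℝ)) / 2)
      ≤ Real.log 2 - Real.binEntropy ε := by
  have hI := ck_full_of_QFS23 qfs_two_thirds f h0 h1
  rw [mutualInfo_eq_E2 f h0 (by linarith), h2_eq] at hI
  have hl : 0 < Real.log 2 := Real.log_pos (by norm_num)
  set H := Tn ε (fun x => sg (f x)) with hH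
  have hE : E2 H = 2 * Real.binEntropy ((1 + mean (fun x => sg (f x))) / 2)
      - 2 * mean (fun y => Real.binEntropy ((1 + H y) / 2)) := by
    unfold E2
    rw [hH, mean_Tn, ← hH, psi2_eq]
    have : (fun x => psi2 (H x))
        = fun x => 2 * Real.log 2 - 2 * Real.binEntropy ((1 + H x) / 2) := by
      funext x
      exact psi2_eq _
    rw [this, mean_sub, mean_const, mean_mul_left]
    ring
  rw [hE, div_le_iff₀ (by positivity)] at hI
  have hI' : Real.binEntropy ((1 + mean (fun x => sg (f x))) / 2)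
      - mean (fun y => Real.binEntropy ((1 + H y) / 2)) ≤ Real.log 2 - Real.binEntropy ε := by
    have e : (1 - Real.binEntropy ε / Real.log 2) * (2 * Real.log 2)
        = 2 * (Real.log 2 - Real.binEntropy ε) := by
      field_simp
    rw [e] at hI
    linarith
  exact hI'

end Vale.Agent.Results.P322.EntropyForm
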