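import Mathlib
import Vale.Agent.P322.Defs
import Vale.Agent.P322.QFAll
import Vale.Agent.P322.QF23

/-!
Courtade-Kumar conjecture (the most informative Boolean function), in full: the inequality
`I(f(X);Y) ≤ 1 - h2 ε` for every Boolean function `f` (balanced or not), in every dimension `n`,
for every crossover probability `ε` in `[0, 1/2]`.
-/

open Vale.Agent.P322 in
theorem Vale.Agent.Results.P322.Full.result (n : ℕ) (f : Cube n → ℤˣ) (ε : ℝ)
    (h0 : 0 ≤ ε) (h1 : ε ≤ 1 / 2) :
    mutualInfo (law n ε) (fun ω => f ω.1) (fun ω => noisy ω) ≤ 1 - h2 ε :=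
  ck_full_of_QFS23 qfs_two_thirds f h0 h1
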